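import Mathlib.Analysis.InnerProductSpace.PiL2

/-!
P370, block C1.  Extension of an orthonormal family for a positive definite symmetric bilinear
form on a finite-dimensional real vector space.
-/

namespace Vale.Agent.P370.H624

open Module

theorem exists_onb_extension {V : Type*} [AddCommGroup V] [Module ℝ V] [FiniteDimensional ℝ V]
    (b : V →ₗ[ℝ] V →ₗ[ℝ] ℝ) (hs : ∀ u v, b u v = b v u) (h0 : ∀ u, 0 ≤ b u u)
    (hd : ∀ u, b u u = 0 → u = 0) {ι : Type*} [Fintype ι] [DecidableEq ι]
    (hcard : finrank ℝ V = Fintype.card ι) (v : ι → V) (s : Set ι)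
    (hv : ∀ i ∈ s, ∀ k ∈ s, b (v i) (v k) = if i = k then 1 else 0) :
    ∃ w : ι → V, (∀ i k, b (w i) (w k) = if i = k then 1 else 0) ∧ (∀ i ∈ s, w i = v i) ∧
      LinearIndependent ℝ w := by
  classical
  let c : InnerProductSpace.Core ℝ V :=
    { inner := fun u v => b u v
      conj_inner_symm := fun u v => by
        simp only [conj_trivial]; exact hs v u
      re_inner_nonneg := fun u => by
        simp only [RCLike.re_to_real]; exact h0 u
      add_left := fun u v w => by simp
      smul_left := fun u v r => by simp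
      definite := fun u h => hd u h }
  let _ : NormedAddCommGroup V := c.toNormedAddCommGroup
  let _ : InnerProductSpace ℝ V := InnerProductSpace.ofCore c.toCore
  have hin : ∀ u v : V, inner ℝ u v = b u v := fun u v => rfl
  have ho : Orthonormal ℝ (s.domRestrict v) := by
    rw [orthonormal_iff_ite]
    rintro ⟨i, hi⟩ ⟨k, hk⟩
    have e : inner ℝ (s.domRestrict v ⟨i, hi⟩) (s.domRestrict v ⟨k, hk⟩) = b (v i) (v k) := rfl
    rw [e, hv i hi k hk]
    simp only [Subtype.mk.injEq]
  obtain ⟨B, hB⟩ := ho.exists_orthonormalBasis_extension_of_card_eq hcard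
  refine ⟨B, fun i k => ?_, hB, B.orthonormal.linearIndependent⟩
  rw [← hin]
  exact (orthonormal_iff_ite.1 B.orthonormal) i k

theorem expand_of_card {V : Type*} [AddCommGroup V] [Module ℝ V] (b : V →ₗ[ℝ] V →ₗ[ℝ] ℝ)
    (W : Submodule ℝ V) [FiniteDimensional ℝ W] {ι : Type*} [Fintype ι] [DecidableEq ι]
    (w : ι → V) (hw : ∀ i, w i ∈ W) (ho : ∀ i k, b (w i) (w k) = if i = k then 1 else 0)
    (hcard : finrank ℝ W = Fintype.card ι) {u : V} (hu : u ∈ W) :
    u = ∑ i, b u (w i) • w i := by
  classical
  have hli : LinearIndependent ℝ w := by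
    rw [Fintype.linearIndependent_iff]
    intro c hc i
    have h1 : b (∑ k, c k • w k) (w i) = 0 := by rw [hc]; simp
    rw [map_sum, LinearMap.sum_apply] at h1
    simpa [ho] using h1
  have hle : Submodule.span ℝ (Set.range w) ≤ W := by
    rw [Submodule.span_le]
    rintro _ ⟨i, rfl⟩
    exact hw i
  have heq : Submodule.span ℝ (Set.range w) = W := by
    apply Submodule.eq_of_le_of_finrank_eq hle
    rw [hcard, finrank_span_eq_card hli]
  have h3 : u ∈ Submodule.span ℝ (Set.range w) := by rw [heq]; exact hu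
  rw [Submodule.mem_span_range_iff_exists_fun] at h3
  obtain ⟨c, hc⟩ := h3
  have h5 : ∀ i, b u (w i) = c i := by
    intro i
    rw [← hc, map_sum, LinearMap.sum_apply]
    simp [ho]
  simp only [h5]
  exact hc.symm

end Vale.Agent.P370.H624
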