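import Vale.Agent.P370.H624.Gap
import Vale.Agent.P370.H624.OnbExt

/-!
P370, block C1.  Orthonormal bases of the shells, with prescribed members; filled systems exist.
-/

namespace Vale.Agent.P370.H624

open MeasureTheory Set Filter Topology
open Vale.Agent.P363.H849 Module
open Vale.Agent.P363.R.Sob (IsWD Test)
open scoped ENNReal ContDiff

noncomputable section

/-- An orthonormal basis of shell `j` extending a given orthonormal family in the shell. -/
theorem exists_shell_basis (j : ℕ) {ι : Type*} [Fintype ι] [DecidableEq ι]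
    (hcard : Fintype.card ι = (j + 1) ^ 2) (v : ι → H1) (s : Set ι)
    (hm : ∀ i ∈ s, v i ∈ Shell j)
    (hv : ∀ i ∈ s, ∀ k ∈ s, ip (v i) (v k) = if i = k then 1 else 0) :
    ∃ w : ι → H1, (∀ i, w i ∈ Shell j) ∧ (∀ i k, ip (w i) (w k) = if i = k then 1 else 0) ∧
      (∀ i ∈ s, w i = v i) := by
  classical
  let v' : ι → Shell j := fun i => if h : i ∈ s then ⟨v i, hm i h⟩ else 0
  obtain ⟨w, h1, h2, -⟩ := exists_onb_extension
    (b := (ip.compl₁₂ (Shell j).subtype (Shell j).subtype : Shell j →ₗ[ℝ] Shell j →ₗ[ℝ] ℝ))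
    (fun u v => ip_symm _ _) (fun u => ip_nonneg _)
    (fun u hu => Subtype.ext (Shell_def u.2 hu)) (ι := ι)
    (by rw [finrank_Shell, hcard]) v' s (by
      intro i hi k hk
      have e1 : (v' i : H1) = v i := by simp only [v', dif_pos hi]
      have e2 : (v' k : H1) = v k := by simp only [v', dif_pos hk]
      rw [← hv i hi k hk, ← e1, ← e2]
      rfl)
  refine ⟨fun i => w i, fun i => (w i).2, fun i k => h1 i k, fun i hi => ?_⟩
  have h3 : (w i : H1) = v' i := by rw [h2 i hi]
  refine h3.trans ?_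
  simp only [v', dif_pos hi]

/-- every element of shell `j` is a combination of a full orthonormal family of the shell -/
theorem shell_expand {j : ℕ} {ι : Type*} [Fintype ι] [DecidableEq ι]
    (hcard : Fintype.card ι = (j + 1) ^ 2) (w : ι → H1) (hw : ∀ i, w i ∈ Shell j)
    (ho : ∀ i k, ip (w i) (w k) = if i = k then 1 else 0) {u : H1} (hu : u ∈ Shell j) :
    u = ∑ i, ip u (w i) • w i := by
  exact expand_of_card ip (Shell j) w hw ho (by rw [hcard, finrank_Shell]) hu

/-- index type of the closed shells `0, …, n - 1` -/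
abbrev Closed (n : ℕ) : Type := Σ j : Fin n, Fin ((j.1 + 1) ^ 2)

theorem card_Closed (n : ℕ) : Fintype.card (Closed n) = ∑ j ∈ Finset.range n, (j + 1) ^ 2 := by
  rw [Fintype.card_sigma, ← Fin.sum_univ_eq_sum_range (fun j => (j + 1) ^ 2) n]
  simp

/-- orthonormal families filling the closed shells exist -/
theorem exists_closed (n : ℕ) : ∃ φ : Closed n → H1, (∀ a, φ a ∈ Shell a.1.1) ∧
    ∀ a b, ip (φ a) (φ b) = if a = b then 1 else 0 := by
  classical
  have h : ∀ j : ℕ, ∃ w : Fin ((j + 1) ^ 2) → H1, (∀ i, w i ∈ Shell j) ∧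
      (∀ i k, ip (w i) (w k) = if i = k then 1 else 0) := fun j => by
    obtain ⟨w, h1, h2, -⟩ := exists_shell_basis j (ι := Fin ((j + 1) ^ 2)) (by simp) (fun _ => 0)
      ∅ (by simp) (by simp)
    exact ⟨w, h1, h2⟩
  choose w hw ho using h
  refine ⟨fun a => w a.1.1 a.2, fun a => hw _ _, ?_⟩
  rintro ⟨i, a⟩ ⟨j, b⟩
  by_cases hij : i = j
  · subst hij
    rw [ho]
    simp
  · rw [Shell_orth (fun h => hij (Fin.ext h)) (hw _ _) (hw _ _), if_neg]
    intro h
    exact hij (congrArg Sigma.fst h)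

/-- closed shells together with a complete orthonormal family of the next shell -/
theorem filled_of_closed {n : ℕ} {ι : Type*} [Fintype ι] [DecidableEq ι] (φ : Closed n → H1)
    (hφ : ∀ a, φ a ∈ Shell a.1.1) (hφo : ∀ a b, ip (φ a) (φ b) = if a = b then 1 else 0)
    (hcard : Fintype.card ι = (n + 1) ^ 2) (w : ι → H1) (hw : ∀ i, w i ∈ Shell n)
    (ho : ∀ i k, ip (w i) (w k) = if i = k then 1 else 0) :
    ∃ S : Filled (n + 1) (Closed n ⊕ ι), (∀ a, S.φ (Sum.inl a) = φ a) ∧
      (∀ i, S.φ (Sum.inr i) = w i) ∧ (∀ a, S.lv (Sum.inl a) = a.1.1) ∧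
      (∀ i, S.lv (Sum.inr i) = n) := by
  refine ⟨{ φ := Sum.elim φ w
            lv := Sum.elim (fun a => a.1.1) (fun _ => n)
            lt := ?_
            mem := ?_
            on := ?_
            card := ?_ }, fun _ => rfl, fun _ => rfl, fun _ => rfl, fun _ => rfl⟩
  · rintro (a | i)
    · exact a.1.2.trans (Nat.lt_succ_self n)
    · exact Nat.lt_succ_self n
  · rintro (a | i)
    · exact hφ a
    · exact hw i
  · rintro (a | i) (b | k)
    · simp only [Sum.elim_inl, hφo, Sum.inl.injEq]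
    · simp only [Sum.elim_inl, Sum.elim_inr, reduceCtorEq, if_false]
      exact Shell_orth (Nat.ne_of_lt a.1.2) (hφ a) (hw k)
    · simp only [Sum.elim_inl, Sum.elim_inr, reduceCtorEq, if_false]
      exact Shell_orth (Nat.ne_of_gt b.1.2) (hw i) (hφ b)
    · simp only [Sum.elim_inr, ho, Sum.inr.injEq]
  · rw [Fintype.card_sum, card_Closed, hcard, Finset.sum_range_succ]

end

end Vale.Agent.P370.H624
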