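import Vale.Agent.P370.H624.Dim
import Vale.Agent.P363.H849.Hydrogen

/-!
P370, block C1.  The hydrogenic shells (all principal quantum numbers) inside `H¹(ℝ³)`.
`Shell j` has principal quantum number `j + 1`, dimension `(j + 1)²` and energy
`-1 / (2 (j + 1)²)`.
-/

namespace Vale.Agent.P370.H624

open MeasureTheory Set Filter Topology
open Vale.Agent.P363.H849 Module
open Vale.Agent.P363.R.Sob (IsWD Test)
open scoped ENNReal ContDiff

noncomputable section

/-- the exponent `κ` of shell `j` (principal quantum number `j + 1`) -/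
def sk (j : ℕ) : ℝ := 1 / ((j : ℝ) + 1)

theorem sk_pos (j : ℕ) : 0 < sk j := by unfold sk; positivity

theorem sk_mul (j : ℕ) : sk j * ((j : ℝ) + 1) = 1 := by
  unfold sk; field_simp

/-- energy of shell `j` -/
def se (j : ℕ) : ℝ := -(1 / (2 * ((j : ℝ) + 1) ^ 2))

theorem se_eq (j : ℕ) : se j = -(1 / 2) * sk j ^ 2 := by
  unfold se sk; field_simp

theorem sk_strictAnti : StrictAnti sk := by
  intro i j hij
  unfold sk
  have : (i : ℝ) < j := by exact_mod_cast hij
  exact one_div_lt_one_div_of_lt (by positivity) (by linarith)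

theorem se_strictMono : StrictMono se := by
  intro i j hij
  rw [se_eq, se_eq]
  have h1 := sk_strictAnti hij
  have h2 := sk_pos j
  have h3 := sk_pos i
  nlinarith

/-- `Kop` as a linear map -/
def KL (κ : ℝ) : (Poly × Poly) →ₗ[ℝ] (Poly × Poly) where
  toFun := Kop κ
  map_add' u v := by
    simp only [Kop, Prod.fst_add, Prod.snd_add, eul_add, lap_add, smul_add, mul_add]
    apply Prod.ext
    · simp only [Prod.fst_add]; module
    · simp only [Prod.snd_add]; module
  map_smul' c u := by
    simp only [Kop, Prod.smul_fst, Prod.smul_snd, eul_smul, lap_smul, mul_smul_comm, RingHom.id_apply]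
    apply Prod.ext
    · simp only [Prod.smul_fst]; module
    · simp only [Prod.smul_snd]; module

@[simp] theorem KL_apply (κ : ℝ) (u : Poly × Poly) : KL κ u = Kop κ u := rfl

theorem Kop_mem' (κ : ℝ) (n : ℕ) {u : Poly × Poly} (hu : u ∈ Un n) : Kop κ u ∈ Un n := by
  have h := Kop_mem κ n (Un_mono (Nat.le_succ n) hu)
  have := (Un n).add_mem h ((Un n).smul_mem (κ * (n + 1)) hu)
  simpa using this

theorem Un_zero {u : Poly × Poly} (hu : u ∈ Un 0) : u = 0 := by
  have h1 : u.1 ∈ Pn 0 := hu.1
  have h2 : u.2 ∈ Pn 0 := hu.2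
  rw [Pn_zero, Submodule.mem_bot] at h1 h2
  exact Prod.ext h1 h2

/-- `K - 1` is injective below the top level -/
theorem Kop_inj (j m : ℕ) (hm : m ≤ j) {u : Poly × Poly} (hu : u ∈ Un m)
    (h : Kop (sk j) u = u) : u = 0 := by
  induction m with
  | zero => exact Un_zero hu
  | succ m ih =>
      have h1 := Kop_mem (sk j) m hu
      rw [h] at h1
      have h2 : (1 - sk j * (m + 1)) • u ∈ Un m := by
        rw [sub_smul, one_smul]; exact h1
      have h3 : (1 - sk j * ((m : ℝ) + 1)) ≠ 0 := by
        have h4 : (m : ℝ) + 1 < j + 1 := by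
          have : m < j := hm
          have : (m : ℝ) < j := by exact_mod_cast this
          linarith
        have h5 := sk_mul j
        have h6 := sk_pos j
        nlinarith
      have h7 : u ∈ Un m := by
        have := (Un m).smul_mem (1 - sk j * ((m : ℝ) + 1))⁻¹ h2
        rwa [smul_smul, inv_mul_cancel₀ h3, one_smul] at this
      exact ih (by omega) h7

/-- the pairs `(p, q)` such that `(p + r q) e^{-κ r}` is an eigenfunction -/
def ShellP (j : ℕ) : Submodule ℝ (Poly × Poly) :=
  Un (j + 1) ⊓ LinearMap.ker (KL (sk j) - LinearMap.id)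

theorem mem_ShellP {j : ℕ} {u : Poly × Poly} :
    u ∈ ShellP j ↔ u ∈ Un (j + 1) ∧ Kop (sk j) u = u := by
  unfold ShellP
  rw [Submodule.mem_inf, LinearMap.mem_ker, LinearMap.sub_apply, KL_apply, LinearMap.id_apply,
    sub_eq_zero]

theorem finrank_ShellP (j : ℕ) : finrank ℝ (ShellP j) = (j + 1) ^ 2 := by
  -- the map `K - 1 : Un (j+1) → Un j`
  have hT : ∀ u : Un (j + 1),
      (KL (sk j) - LinearMap.id : (Poly × Poly) →ₗ[ℝ] (Poly × Poly)) u.1 ∈ Un j := by
    intro u
    have h := Kop_mem (sk j) j u.2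
    rw [sk_mul, one_smul] at h
    exact h
  let T : Un (j + 1) →ₗ[ℝ] Un j :=
    ((KL (sk j) - LinearMap.id).comp (Un (j + 1)).subtype).codRestrict (Un j) hT
  have hTa : ∀ u, (T u : Poly × Poly) = Kop (sk j) u.1 - u.1 := fun u => rfl
  let ι : Un j →ₗ[ℝ] Un (j + 1) := Submodule.inclusion (Un_mono (Nat.le_succ j))
  have hinj : Function.Injective (T ∘ₗ ι) := by
    rw [← LinearMap.ker_eq_bot, LinearMap.ker_eq_bot']
    intro u hu
    have h1 : (T (ι u) : Poly × Poly) = 0 := by
      have : T (ι u) = 0 := hu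
      rw [this]; rfl
    rw [hTa] at h1
    have h2 : Kop (sk j) u.1 = u.1 := sub_eq_zero.1 h1
    exact Subtype.ext (Kop_inj j j le_rfl u.2 h2)
  have hsurj : Function.Surjective (T ∘ₗ ι) :=
    (LinearMap.injective_iff_surjective_of_finrank_eq_finrank rfl).1 hinj
  have hTs : Function.Surjective T := fun y => by
    obtain ⟨x, hx⟩ := hsurj y
    exact ⟨ι x, hx⟩
  have hrange : finrank ℝ (LinearMap.range T) = finrank ℝ (Un j) := by
    rw [LinearMap.range_eq_top.2 hTs, finrank_top]
  have h3 := LinearMap.finrank_range_add_finrank_ker T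
  rw [hrange, finrank_Un_succ] at h3
  have h4 : finrank ℝ (LinearMap.ker T) = (j + 1) ^ 2 := by omega
  rw [← h4]
  have e : ShellP j ≃ₗ[ℝ] LinearMap.ker T :=
    { toFun := fun u => ⟨⟨u.1, (mem_ShellP.1 u.2).1⟩, by
        rw [LinearMap.mem_ker]
        apply Subtype.ext
        rw [hTa]
        exact sub_eq_zero.2 (mem_ShellP.1 u.2).2⟩
      map_add' := fun _ _ => rfl
      map_smul' := fun _ _ => rfl
      invFun := fun u => ⟨u.1.1, mem_ShellP.2 ⟨u.1.2, by
        have h5 : T u.1 = 0 := u.2
        have h6 := hTa u.1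
        rw [h5] at h6
        exact sub_eq_zero.1 h6.symm⟩⟩
      left_inv := fun _ => rfl
      right_inv := fun _ => rfl }
  exact e.finrank_eq

/-! ### injectivity of `Phi` -/

/-- restriction of a polynomial to a line through the origin -/
def line (x : R3) : Poly →ₐ[ℝ] Polynomial ℝ :=
  MvPolynomial.aeval fun i => Polynomial.C (x i) * Polynomial.X

theorem line_eval (x : R3) (p : Poly) (t : ℝ) : (line x p).eval t = ev p (t • x) := by
  have h : (Polynomial.evalRingHom t).comp (line x).toRingHom
      = MvPolynomial.eval (fun i => (t • x) i) := by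
    apply MvPolynomial.ringHom_ext
    · intro c
      simp [line]
    · intro i
      simp only [line, RingHom.comp_apply, AlgHom.toRingHom_eq_coe, RingHom.coe_coe,
        MvPolynomial.aeval_X, Polynomial.coe_evalRingHom, Polynomial.eval_mul, Polynomial.eval_C,
        Polynomial.eval_X, MvPolynomial.eval_X, PiLp.smul_apply, smul_eq_mul]
      ring
  exact congrArg (fun F => F p) h

theorem wv_eq (κ : ℝ) (u : Poly × Poly) (x : R3) :
    wv κ u x = (ev u.1 x + ‖x‖ * ev u.2 x) * Real.exp (-κ * ‖x‖) := by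
  simp only [wv, G, hA, hB]; ring

theorem pair_eq_zero {u : Poly × Poly} (h : ∀ x : R3, ev u.1 x + ‖x‖ * ev u.2 x = 0) : u = 0 := by
  have key : ∀ x : R3, x ≠ 0 → line x u.1 = 0 ∧ line x u.2 = 0 := by
    intro x hx
    have hn : ‖x‖ ≠ 0 := norm_ne_zero_iff.2 hx
    have e1 : line x u.1 + Polynomial.C ‖x‖ * Polynomial.X * line x u.2 = 0 := by
      apply Polynomial.eq_zero_of_infinite_isRoot
      apply (Set.Ioi_infinite (0 : ℝ)).mono
      intro t ht
      have ht' : (0 : ℝ) < t := ht
      have := h (t • x)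
      rw [norm_smul, Real.norm_eq_abs, abs_of_pos ht'] at this
      simp only [Set.mem_ofPred_eq, Polynomial.IsRoot, Polynomial.eval_add, Polynomial.eval_mul,
        Polynomial.eval_C, Polynomial.eval_X, line_eval]
      linarith
    have e2 : line x u.1 - Polynomial.C ‖x‖ * Polynomial.X * line x u.2 = 0 := by
      apply Polynomial.eq_zero_of_infinite_isRoot
      apply (Set.Iio_infinite (0 : ℝ)).mono
      intro t ht
      have ht' : t < (0 : ℝ) := ht
      have := h (t • x)
      rw [norm_smul, Real.norm_eq_abs, abs_of_neg ht'] at this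
      simp only [Set.mem_ofPred_eq, Polynomial.IsRoot, Polynomial.eval_sub, Polynomial.eval_mul,
        Polynomial.eval_C, Polynomial.eval_X, line_eval]
      linarith
    have e3 : line x u.1 = 0 := by
      have h2 : (2 : ℝ) • line x u.1 = 0 := by
        rw [two_smul]
        linear_combination e1 + e2
      exact (smul_eq_zero.1 h2).resolve_left (by norm_num)
    refine ⟨e3, ?_⟩
    rw [e3, zero_add] at e1
    rcases mul_eq_zero.1 e1 with h4 | h4
    · rcases mul_eq_zero.1 h4 with h5 | h5
      · exact absurd (Polynomial.C_eq_zero.1 h5) hn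
      · exact absurd h5 Polynomial.X_ne_zero
    · exact h4
  have hz : ∀ (q : Poly), (∀ x : R3, x ≠ 0 → line x q = 0) → q = 0 := by
    intro q hq
    apply MvPolynomial.funext
    intro y
    rw [map_zero]
    by_cases hy : y = 0
    · subst hy
      have h1 := hq (EuclideanSpace.single 0 1) (by
        intro h0
        have := congrArg (fun z : R3 => z 0) h0
        simp at this)
      have h2 := line_eval (EuclideanSpace.single 0 1) q 0
      rw [h1, Polynomial.eval_zero, zero_smul] at h2
      exact h2.symm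
    · have h1 := hq (WithLp.toLp 2 y) (by
        intro h0
        apply hy
        funext i
        exact congrArg (fun z : R3 => z i) h0)
      have h2 := line_eval (WithLp.toLp 2 y) q 1
      rw [h1, Polynomial.eval_zero, one_smul] at h2
      exact h2.symm
  exact Prod.ext (hz _ fun x hx => (key x hx).1) (hz _ fun x hx => (key x hx).2)

theorem wv_eq_zero {κ : ℝ} {u : Poly × Poly} (h : ∀ x, wv κ u x = 0) : u = 0 := by
  apply pair_eq_zero
  intro x
  have := h x
  rw [wv_eq] at this
  exact (mul_eq_zero.1 this).resolve_right (Real.exp_pos _).ne'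

theorem Phi_injective {κ : ℝ} (hκ : 0 < κ) : Function.Injective (Phi hκ) := by
  rw [← LinearMap.ker_eq_bot, LinearMap.ker_eq_bot']
  intro u hu
  apply wv_eq_zero (κ := κ)
  intro x
  rw [← Phi_fst hκ, hu]; rfl

theorem ip_Phi_eq_zero {κ : ℝ} (hκ : 0 < κ) {u : Poly × Poly}
    (h : ip (Phi hκ u) (Phi hκ u) = 0) : u = 0 := by
  have h1 : (fun x => wv κ u x * wv κ u x) =ᵐ[volume] 0 := by
    rw [← integral_eq_zero_iff_of_nonneg]
    · exact h
    · intro x; exact mul_self_nonneg _
    · exact (m1 (Phi hκ u)).integrable_mul (m1 (Phi hκ u))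
  have h2 : wv κ u =ᵐ[volume] fun _ => (0 : ℝ) := by
    filter_upwards [h1] with x hx
    simpa using hx
  have h3 : wv κ u = fun _ => (0 : ℝ) := by
    have := (wv_continuous κ u).ae_eq_iff_eq (μ := volume) (continuous_const (y := (0 : ℝ)))
    exact this.1 h2
  exact wv_eq_zero (κ := κ) fun x => by rw [h3]

/-- **the shell `j`** (principal quantum number `j + 1`) -/
def Shell (j : ℕ) : Submodule ℝ H1 := (ShellP j).map (Phi (sk_pos j))

theorem finrank_Shell (j : ℕ) : finrank ℝ (Shell j) = (j + 1) ^ 2 := by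
  rw [← finrank_ShellP j]
  exact (Submodule.equivMapOfInjective _ (Phi_injective (sk_pos j)) _).symm.finrank_eq

instance Shell_fin (j : ℕ) : FiniteDimensional ℝ (Shell j) :=
  FiniteDimensional.of_finrank_pos (by rw [finrank_Shell]; positivity)

theorem Shell_def {j : ℕ} {w : H1} (hw : w ∈ Shell j) (h : ip w w = 0) : w = 0 := by
  obtain ⟨u, -, rfl⟩ := hw
  rw [ip_Phi_eq_zero (sk_pos j) h, map_zero]

/-- weak eigen-equation -/
theorem Shell_eig {j : ℕ} {w : H1} (hw : w ∈ Shell j) (f : H1) :
    (1 / 2) * dir f w - bc hardyInt f w = se j * ip f w := by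
  obtain ⟨u, hu, rfl⟩ := hw
  have h := K_identity hardyInt (sk_pos j) f u
  rw [(mem_ShellP.1 hu).2] at h
  rw [se_eq]
  linarith

theorem Shell_orth {i j : ℕ} (hij : i ≠ j) {u w : H1} (hu : u ∈ Shell i) (hw : w ∈ Shell j) :
    ip u w = 0 := by
  have h1 := Shell_eig hw u
  have h2 := Shell_eig hu w
  rw [dir_symm, bc_symm, ip_symm w u] at h2
  have h3 : (se i - se j) * ip u w = 0 := by linarith
  refine (mul_eq_zero.1 h3).resolve_left (sub_ne_zero.2 ?_)
  exact fun h => hij (se_strictMono.injective h)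

theorem degree_of_hom {j : ℕ} {p : Poly} (hp : p.IsHomogeneous j) {m : Fin 3 →₀ ℕ}
    (hm : m ∈ p.support) : m.degree = j := by
  have h := hp (MvPolynomial.mem_support_iff.1 hm)
  have h2 : m.degree = Finsupp.weight (fun _ => 1) m :=
    congrArg (fun F => F m) (Finsupp.degree_eq_weight_one (σ := Fin 3) (R := ℕ))
  exact h2.trans h

/-- a homogeneous harmonic polynomial of degree `j` gives an element of shell `j` -/
theorem harmonic_mem_Shell {j : ℕ} {p : Poly} (hp : p.IsHomogeneous j) (hl : lap p = 0) :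
    Phi (sk_pos j) (p, 0) ∈ Shell j := by
  refine Submodule.mem_map_of_mem (mem_ShellP.2 ⟨⟨?_, (Pn _).zero_mem⟩, ?_⟩)
  · show p ∈ Pn (j + 1)
    unfold Pn
    rw [MvPolynomial.mem_restrictSupport_iff]
    intro m hm
    show m.degree < j + 1
    have h' : m.degree = j := degree_of_hom hp hm
    omega
  · have he : eul p = (j : ℝ) • p := by
      conv_lhs => rw [MvPolynomial.as_sum p]
      have h1 : ∀ s : Finset (Fin 3 →₀ ℕ), ∀ F : (Fin 3 →₀ ℕ) → Poly,
          eul (∑ m ∈ s, F m) = ∑ m ∈ s, eul (F m) := by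
        intro s F
        simp only [eul, map_sum, Finset.mul_sum]
        rw [Finset.sum_comm]
      rw [h1]
      conv_rhs => rw [MvPolynomial.as_sum p, Finset.smul_sum]
      apply Finset.sum_congr rfl
      intro m hm
      rw [eul_monomial]
      rw [degree_of_hom hp hm]
    apply Prod.ext
    · simp only [Kop, he, hl]
      have h0 : eul (0 : Poly) = 0 := by simp [eul]
      have h2 : lap (0 : Poly) = 0 := by simp [lap]
      rw [h0, h2]
      have h3 : (j : ℝ) • p + p = ((j : ℝ) + 1) • p := by rw [add_smul, one_smul]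
      rw [h3, smul_smul, sk_mul, one_smul]
      simp
    · have h0 : eul (0 : Poly) = 0 := by simp [eul]
      simp [Kop, hl, h0]

end

end Vale.Agent.P370.H624
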