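import Vale.Agent.P363.H849.Gap0

/-!
P370, block C1.  Dimensions of the spaces of polynomials and of the flag.
-/

namespace Vale.Agent.P370.H624

open Vale.Agent.P363.H849 MvPolynomial Module

noncomputable section

/-- the exponents of degree `< n` as a finset -/
def expo (n : ℕ) : Finset (Fin 3 →₀ ℕ) :=
  (Finset.range n).biUnion fun i => Finset.finsuppAntidiag Finset.univ i

theorem mem_expo (n : ℕ) (m : Fin 3 →₀ ℕ) : m ∈ expo n ↔ m.degree < n := by
  simp only [expo, Finset.mem_biUnion, Finset.mem_range, Finset.mem_finsuppAntidiag,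
    Finset.subset_univ, and_true]
  rw [Finsupp.degree_eq_sum]
  constructor
  · rintro ⟨i, hi, h⟩
    exact lt_of_eq_of_lt h hi
  · intro h; exact ⟨_, h, rfl⟩

theorem card_expo (n : ℕ) : (expo n).card = (n + 2).choose 3 := by
  rw [expo, Finset.card_biUnion]
  · simp only [Finset.card_finsuppAntidiag_nat_eq_choose, Finset.card_univ, Fintype.card_fin]
    induction n with
    | zero => rfl
    | succ n ih =>
        rw [Finset.sum_range_succ, ih]
        have h1 : (3 + n - 1).choose n = (n + 2).choose 2 := by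
          rw [show 3 + n - 1 = n + 2 by omega, ← Nat.choose_symm_add]
        rw [h1, show n + 1 + 2 = (n + 2) + 1 by ring, Nat.choose_succ_succ (n + 2) 2, add_comm]
  · intro i _ j _ hij
    rw [Function.onFun, Finset.disjoint_left]
    intro m hi hj
    rw [Finset.mem_finsuppAntidiag] at hi hj
    exact hij (hi.1.symm.trans hj.1)

theorem finrank_Pn (n : ℕ) : finrank ℝ (Pn n) = (n + 2).choose 3 := by
  have e : {m : Fin 3 →₀ ℕ | m.degree < n} = (expo n : Set (Fin 3 →₀ ℕ)) := by
    ext m
    rw [Finset.mem_coe, mem_expo]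
    rfl
  unfold Pn
  rw [e, Module.finrank_eq_nat_card_basis (basisRestrictSupport ℝ _), ← card_expo]
  simp

theorem finrank_Un_succ (n : ℕ) : finrank ℝ (Un (n + 1)) = finrank ℝ (Un n) + (n + 1) ^ 2 := by
  have h : ∀ m, finrank ℝ (Un m) = (m + 2).choose 3 + (m - 1 + 2).choose 3 := by
    intro m
    have e : (Un m) ≃ₗ[ℝ] (Pn m × Pn (m - 1)) :=
      { toFun := fun x => (⟨x.1.1, x.2.1⟩, ⟨x.1.2, x.2.2⟩)
        map_add' := fun _ _ => rfl
        map_smul' := fun _ _ => rfl
        invFun := fun x => ⟨(x.1.1, x.2.1), x.1.2, x.2.2⟩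
        left_inv := fun _ => rfl
        right_inv := fun _ => rfl }
    rw [e.finrank_eq, Module.finrank_prod, finrank_Pn, finrank_Pn]
  rw [h, h]
  cases n with
  | zero => decide
  | succ n =>
      simp only [Nat.add_sub_cancel]
      have h1 : (n + 1 + 1 + 2).choose 3 = (n + 1 + 2).choose 3 + (n + 1 + 2).choose 2 := by
        rw [show n + 1 + 1 + 2 = (n + 1 + 2) + 1 by ring, Nat.choose_succ_succ, add_comm]
      have h2 : (n + 1 + 2).choose 3 = (n + 2).choose 3 + (n + 2).choose 2 := by
        rw [show n + 1 + 2 = (n + 2) + 1 by ring, Nat.choose_succ_succ, add_comm]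
      have h3 : (n + 2).choose 2 = (n + 2) * (n + 1) / 2 := by
        rw [Nat.choose_two_right]; simp
      have h4 : (n + 1 + 2).choose 2 = (n + 3) * (n + 2) / 2 := by
        rw [Nat.choose_two_right]; simp
      have h5 : (n + 2) * (n + 1) / 2 + (n + 3) * (n + 2) / 2 = (n + 2) ^ 2 := by
        have e1 : 2 ∣ (n + 2) * (n + 1) := by
          rw [mul_comm]; exact (Nat.even_mul_succ_self (n + 1)).two_dvd
        have e2 : 2 ∣ (n + 3) * (n + 2) := by
          rw [mul_comm]; exact (Nat.even_mul_succ_self (n + 2)).two_dvd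
        obtain ⟨a, ha⟩ := e1
        obtain ⟨b, hb⟩ := e2
        rw [ha, hb, Nat.mul_div_cancel_left _ (by norm_num), Nat.mul_div_cancel_left _ (by norm_num)]
        nlinarith
      rw [h1, show n + 1 + 1 = n + 2 by ring]
      omega

theorem finrank_Un_zero : finrank ℝ (Un 0) = 0 := by
  have : Un 0 = ⊥ := by
    unfold Un
    simp only [Nat.zero_sub, Pn_zero]
    exact Submodule.prod_bot
  rw [this, finrank_bot]

theorem finrank_Un (n : ℕ) : finrank ℝ (Un n) = ∑ j ∈ Finset.range n, (j + 1) ^ 2 := by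
  induction n with
  | zero => rw [finrank_Un_zero]; rfl
  | succ n ih => rw [finrank_Un_succ, ih, Finset.sum_range_succ]

end

end Vale.Agent.P370.H624
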