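import Vale.Agent.P370.H624.Shell

/-!
P370, block C1.  The hydrogen gap above the first `n` shells, for real and complex functions.
-/

namespace Vale.Agent.P370.H624

open MeasureTheory Set Filter Topology
open Vale.Agent.P363.H849 Module
open Vale.Agent.P363.R.Sob (IsWD Test)
open scoped ENNReal ContDiff

noncomputable section

/-- **Sturmian gap**, general level. -/
theorem sturm_gap_n {κ : ℝ} (hκ : 0 < κ) (n : ℕ) (f : H1)
    (hf : ∀ w ∈ Wn hκ n, bc hardyInt f w = 0) :
    κ * (n + 1) * bc hardyInt f f ≤ aform κ f f := by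
  refine flag_gap (aform κ) (bc hardyInt) ?_ (bc_symm hardyInt) ?_ (bc_nonneg hardyInt) (Wn hκ)
    (Wn_fin hκ) (Wn_mono hκ) (Wn_def hardyInt hκ) κ hκ.le ?_ n f hf ?_
  · intro u v
    rw [aform_apply, aform_apply, dir_symm, ip_symm]
  · intro u
    rw [aform_apply]
    have h1 := dir_nonneg u
    have h2 := ip_nonneg u
    positivity
  · rintro n w ⟨u, hu, rfl⟩
    refine ⟨Phi hκ (Kop κ u), fun g => ?_, ?_⟩
    · rw [aform_apply]
      exact K_identity hardyInt hκ g u
    · rw [← map_smul, ← map_sub]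
      exact ⟨_, Kop_mem κ n hu, rfl⟩
  · intro ε hε
    obtain ⟨p, hp⟩ := Vale.Agent.P363.H979.exists_poly_approx hκ (m1 f).1 (hardyInt f) hε
    refine ⟨p.totalDegree + 1, Phi hκ (p, 0), ⟨(p, 0), ⟨mem_Pn_totalDegree p,
      (Pn _).zero_mem⟩, rfl⟩, ?_⟩
    refine le_of_eq_of_le ?_ hp
    rw [bc_apply]
    apply integral_congr_ae
    filter_upwards with x
    have e : (f - Phi hκ (p, 0)).1.1 x = f.1.1 x - Vale.Agent.P363.H979.pexp κ p x := by
      simp only [Submodule.coe_sub, Prod.fst_sub, Pi.sub_apply, Phi_fst, wv, G,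
        Vale.Agent.P363.H979.pexp, Vale.Agent.P363.H979.pev, ev, hA, neg_mul, map_zero, zero_mul,
        add_zero]
    rw [e, sq]

/-- the form `½(∇f,∇g) - se n (f,g) - (f,g)/r` -/
def Qn (n : ℕ) : H1 →ₗ[ℝ] H1 →ₗ[ℝ] ℝ :=
  (1 / 2 : ℝ) • dir - (se n) • ip - bc hardyInt

theorem Qn_apply (n : ℕ) (u w : H1) :
    Qn n u w = 1 / 2 * dir u w - se n * ip u w - bc hardyInt u w := by
  simp [Qn]

theorem Qn_symm (n : ℕ) (u v : H1) : Qn n u v = Qn n v u := by
  rw [Qn_apply, Qn_apply, dir_symm, ip_symm, bc_symm]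

theorem Qn_shell (n : ℕ) {j : ℕ} {w : H1} (hw : w ∈ Shell j) (u : H1) :
    Qn n u w = (se j - se n) * ip u w := by
  have := Shell_eig hw u
  rw [Qn_apply]; linarith

/-- a system of orbitals filling the first `n` shells: `φ a` is in shell `lv a < n`, the family is
orthonormal and has `∑_{j<n} (j+1)²` members. -/
structure Filled (n : ℕ) (ι : Type*) [Fintype ι] [DecidableEq ι] where
  φ : ι → H1
  lv : ι → ℕ
  lt : ∀ a, lv a < n
  mem : ∀ a, φ a ∈ Shell (lv a)
  on : ∀ a b, ip (φ a) (φ b) = if a = b then 1 else 0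
  card : Fintype.card ι = ∑ j ∈ Finset.range n, (j + 1) ^ 2

theorem Filled.nonneg {n : ℕ} {ι : Type*} [Fintype ι] [DecidableEq ι] (S : Filled n ι) (f : H1)
    (hf : ∀ a, ip f (S.φ a) = 0) : 0 ≤ Qn n f f := by
  have hfr : finrank ℝ (Un n) = Fintype.card ι := by rw [S.card, finrank_Un]
  obtain ⟨b⟩ : Nonempty (Basis ι ℝ (Un n)) :=
    ⟨(finBasis ℝ (Un n)).reindex (Fintype.equivOfCardEq (by simpa using hfr))⟩
  refine nonneg_of_orth (Qn n) (Qn_symm n)
    (fun i => (bc hardyInt).flip (Phi (sk_pos n) (b i : Poly × Poly))) ?_ S.φ ?_ f ?_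
  · intro u hu
    have h0 : ∀ w ∈ Wn (sk_pos n) n, bc hardyInt u w = 0 := by
      rintro w ⟨v, hv, rfl⟩
      have h1 := b.sum_repr ⟨v, hv⟩
      have h2 : v = ∑ i, b.repr ⟨v, hv⟩ i • (b i : Poly × Poly) := by
        have h3 := congrArg (Un n).subtype h1
        rw [map_sum] at h3
        simp only [map_smul] at h3
        exact h3.symm
      rw [h2, map_sum, map_sum]
      apply Finset.sum_eq_zero
      intro i _
      rw [map_smul, map_smul]
      have h3 : bc hardyInt u (Phi (sk_pos n) (b i : Poly × Poly)) = 0 := hu i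
      rw [h3, smul_zero]
    have h4 := sturm_gap_n (sk_pos n) n u h0
    rw [sk_mul, one_mul, aform_apply] at h4
    rw [Qn_apply, se_eq]
    linarith
  · intro c hc
    have hexp : Qn n (∑ i, c i • S.φ i) (∑ i, c i • S.φ i)
        = ∑ i, (se (S.lv i) - se n) * c i ^ 2 := by
      rw [map_sum]
      apply Finset.sum_congr rfl
      intro i _
      rw [map_smul, Qn_shell n (S.mem i), map_sum, LinearMap.sum_apply]
      simp only [map_smul, LinearMap.smul_apply, S.on, smul_eq_mul, mul_ite, mul_one, mul_zero,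
        Finset.sum_ite_eq', Finset.mem_univ, if_true]
      ring
    rw [hexp]
    obtain ⟨i, hi⟩ := Function.ne_iff.1 hc
    have hci : c i ≠ 0 := by simpa using hi
    have hneg : ∀ a, se (S.lv a) - se n < 0 := fun a => sub_neg.2 (se_strictMono (S.lt a))
    refine lt_of_lt_of_eq (Finset.sum_lt_sum (f := fun a => (se (S.lv a) - se n) * c a ^ 2)
      (g := fun _ => (0 : ℝ)) (fun a _ => ?_) ⟨i, Finset.mem_univ i, ?_⟩) Finset.sum_const_zero
    · exact mul_nonpos_of_nonpos_of_nonneg (hneg a).le (sq_nonneg _)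
    · exact mul_neg_of_neg_of_pos (hneg i) (by positivity)
  · intro a
    rw [Qn_shell n (S.mem a), hf, mul_zero]

/-- **The hydrogen gap above `n` shells**, in the form domain. -/
theorem Filled.gap {n : ℕ} {ι : Type*} [Fintype ι] [DecidableEq ι] (S : Filled n ι) (f : H1) :
    (∑ a, se (S.lv a) * ip f (S.φ a) ^ 2) + se n * (ip f f - ∑ a, ip f (S.φ a) ^ 2)
      ≤ 1 / 2 * dir f f - bc hardyInt f f := by
  set s : H1 := ∑ a, ip f (S.φ a) • S.φ a with hs
  have h1 : ∀ a, ip s (S.φ a) = ip f (S.φ a) := by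
    intro a
    rw [hs, map_sum, LinearMap.sum_apply]
    simp only [map_smul, LinearMap.smul_apply, smul_eq_mul, S.on, mul_ite, mul_one, mul_zero,
      Finset.sum_ite_eq', Finset.mem_univ, if_true]
  have h2 : ∀ a, ip (f - s) (S.φ a) = 0 := by
    intro a
    rw [map_sub, LinearMap.sub_apply, h1, sub_self]
  have h3 := S.nonneg (f - s) h2
  have h4 : Qn n (f - s) s = 0 := by
    conv_lhs => rw [hs]
    rw [map_sum]
    apply Finset.sum_eq_zero
    intro a _
    rw [map_smul, Qn_shell n (S.mem a), h2, mul_zero, smul_zero]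
  have h5 : Qn n s s = ∑ a, (se (S.lv a) - se n) * ip f (S.φ a) ^ 2 := by
    conv_lhs => rw [hs]
    rw [map_sum, ← hs]
    apply Finset.sum_congr rfl
    intro a _
    rw [map_smul, Qn_shell n (S.mem a), h1, smul_eq_mul]
    ring
  have h6 : Qn n f f = Qn n (f - s) (f - s) + Qn n s s := by
    have e : f = (f - s) + s := by abel
    conv_lhs => rw [e]
    simp only [map_add, LinearMap.add_apply]
    rw [h4, Qn_symm n s (f - s), h4]
    ring
  rw [h5] at h6
  rw [Qn_apply n f f] at h6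
  have h7 : ∑ a, (se (S.lv a) - se n) * ip f (S.φ a) ^ 2
      = (∑ a, se (S.lv a) * ip f (S.φ a) ^ 2) - se n * ∑ a, ip f (S.φ a) ^ 2 := by
    rw [Finset.mul_sum, ← Finset.sum_sub_distrib]
    exact Finset.sum_congr rfl fun a _ => by ring
  rw [h7] at h6
  linarith

/-- value of an orbital -/
def Filled.orb {n : ℕ} {ι : Type*} [Fintype ι] [DecidableEq ι] (S : Filled n ι) (a : ι) : R3 → ℝ :=
  (S.φ a).1.1

theorem Filled.orb_memLp {n : ℕ} {ι : Type*} [Fintype ι] [DecidableEq ι] (S : Filled n ι)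
    (a : ι) : MemLp (S.orb a) 2 := m1 _

theorem Filled.orb_orthonormal {n : ℕ} {ι : Type*} [Fintype ι] [DecidableEq ι] (S : Filled n ι)
    (a b : ι) : ∫ x, S.orb a x * S.orb b x = if a = b then 1 else 0 := S.on a b

/-- **Hydrogen gap above `n` shells, real functions**. -/
theorem Filled.gap_real {n : ℕ} {ι : Type*} [Fintype ι] [DecidableEq ι] (S : Filled n ι)
    {f : R3 → ℝ} {g : Fin 3 → R3 → ℝ} (hf : MemLp f 2)
    (hg : ∀ k, MemLp (g k) 2) (hW : ∀ k, IsWD volume (e3 k) f (g k)) :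
    (∑ a, se (S.lv a) * (∫ x, S.orb a x * f x) ^ 2)
      + se n * ((∫ x, f x ^ 2) - ∑ a, (∫ x, S.orb a x * f x) ^ 2)
      ≤ (1 / 2) * (∑ k, ∫ x, g k x ^ 2) - ∫ x, f x ^ 2 / ‖x‖ := by
  have h := S.gap ⟨(f, g), hf, hg, hW⟩
  have e1 : ∀ a, ip ⟨(f, g), hf, hg, hW⟩ (S.φ a) = ∫ x, S.orb a x * f x := by
    intro a
    rw [ip_symm, ip_apply]; rfl
  simp only [e1, ip_apply, dir_apply, bc_apply] at h
  simp only [sq]
  simpa only [sq] using h

/-- **Hydrogen gap above `n` shells, complex functions**. -/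
theorem Filled.gap_complex {n : ℕ} {ι : Type*} [Fintype ι] [DecidableEq ι] (S : Filled n ι)
    {f : R3 → ℂ} {g : Fin 3 → R3 → ℂ} (hf : MemLp f 2)
    (hg : ∀ k, MemLp (g k) 2) (hW : ∀ k, IsWD volume (e3 k) f (g k)) :
    (∑ a, se (S.lv a) * ‖∫ x, (S.orb a x : ℂ) * f x‖ ^ 2)
      + se n * ((∫ x, ‖f x‖ ^ 2) - ∑ a, ‖∫ x, (S.orb a x : ℂ) * f x‖ ^ 2)
      ≤ (1 / 2) * (∑ k, ∫ x, ‖g k x‖ ^ 2) - ∫ x, ‖f x‖ ^ 2 / ‖x‖ := by
  have hr := S.gap_real (memLp_re hf) (fun k => memLp_re (hg k))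
    (fun k => isWD_re hf (hg k) (hW k))
  have hi := S.gap_real (memLp_im hf) (fun k => memLp_im (hg k))
    (fun k => isWD_im hf (hg k) (hW k))
  have e1 : ∀ i, ‖∫ x, (S.orb i x : ℂ) * f x‖ ^ 2
      = (∫ x, S.orb i x * (f x).re) ^ 2 + (∫ x, S.orb i x * (f x).im) ^ 2 := by
    intro i
    have hint : Integrable (fun x => (S.orb i x : ℂ) * f x) :=
      ((S.orb_memLp i).ofReal (K := ℂ)).integrable_mul hf
    rw [normSq_split]
    congr 1
    · congr 1
      have := (Complex.reCLM.integral_comp_comm hint).symm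
      simp only [Complex.reCLM_apply, Complex.mul_re, Complex.ofReal_re, Complex.ofReal_im,
        zero_mul, sub_zero] at this
      exact this
    · congr 1
      have := (Complex.imCLM.integral_comp_comm hint).symm
      simp only [Complex.imCLM_apply, Complex.mul_im, Complex.ofReal_re, Complex.ofReal_im,
        zero_mul, add_zero] at this
      exact this
  have hHre : Integrable (fun x => (f x).re ^ 2 / ‖x‖) :=
    hardyInt ⟨(fun x => (f x).re, fun k x => (g k x).re), memLp_re hf, fun k => memLp_re (hg k),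
      fun k => isWD_re hf (hg k) (hW k)⟩
  have hHim : Integrable (fun x => (f x).im ^ 2 / ‖x‖) :=
    hardyInt ⟨(fun x => (f x).im, fun k x => (g k x).im), memLp_im hf, fun k => memLp_im (hg k),
      fun k => isWD_im hf (hg k) (hW k)⟩
  have e2 : ∫ x, ‖f x‖ ^ 2 / ‖x‖ = (∫ x, (f x).re ^ 2 / ‖x‖) + ∫ x, (f x).im ^ 2 / ‖x‖ := by
    rw [← integral_add hHre hHim]
    congr 1; funext x
    rw [normSq_split, add_div]
  simp only [e1, e2, integral_normSq_split hf, fun k => integral_normSq_split (hg k),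
    Finset.sum_add_distrib, mul_add]
  linarith

end

end Vale.Agent.P370.H624
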